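import Vale.Agent.P087.MathlibUsed

/-! Self-contained definitions for the final statement about P087. -/

open MeasureTheory Filter
open scoped ENNReal NNReal

namespace Vale.Agent.P087.FD

/-- The self-adjoint `k × k` matrix whose coordinates in the basis
`E_aa`, `(E_ab + E_ba)/√2`, `i(E_ab - E_ba)/√2` (`a < b`), orthonormal for `Tr(AB)`, are `x`. -/
noncomputable def herm (k : ℕ) (x : Fin k → Fin k → ℝ) : Matrix (Fin k) (Fin k) ℂ :=
  fun a b =>
    if a = b then (x a a : ℂ)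
    else if a < b then ((x a b : ℂ) + (x b a : ℂ) * Complex.I) / ((Real.sqrt 2 : ℝ) : ℂ)
    else ((x b a : ℂ) - (x a b : ℂ) * Complex.I) / ((Real.sqrt 2 : ℝ) : ℂ)

/-- `‖A‖ ≤ R` (operator norm on `ℂ^k`, for `R ≥ 0`). -/
def NormLe {k : ℕ} (A : Matrix (Fin k) (Fin k) ℂ) (R : ℝ) : Prop :=
  ∀ v : Fin k → ℂ, ∑ a, ‖A.mulVec v a‖ ^ 2 ≤ R ^ 2 * ∑ a, ‖v a‖ ^ 2

section Law

variable {ι : Type} [Fintype ι] [DecidableEq ι]

/-- Microstates `Γ_R(X; m, k, ε)` for a tuple with moments `μ w = τ(X_w)`. -/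
def microstates (μ : List ι → ℂ) (R : ℝ) (m k : ℕ) (ε : ℝ) : Set (ι → Fin k → Fin k → ℝ) :=
  {x | (∀ j, NormLe (herm k (x j)) R) ∧
    ∀ w : List ι, 1 ≤ w.length → w.length ≤ m →
      ‖(k : ℂ)⁻¹ * ((w.map fun j => herm k (x j)).prod).trace - μ w‖ < ε}

/-- `χ_R`. -/
noncomputable def chiR (μ : List ι → ℂ) (R : ℝ) : EReal :=
  ⨅ (m : ℕ) (ε : ℝ) (_ : 0 < ε),
    limsup (fun k : ℕ =>
      ((((k : ℝ) ^ 2)⁻¹ : ℝ) : EReal) * ENNReal.log (volume (microstates μ R m k ε))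
        + (((Fintype.card ι : ℝ) / 2 * Real.log k : ℝ) : EReal)) atTop

/-- Voiculescu's microstates free entropy `χ`. -/
noncomputable def chi (μ : List ι → ℂ) : EReal := ⨆ (R : ℝ) (_ : 0 < R), chiR μ R

/-- `(τ ⊗ τ)(∂_j X_w)` for a monomial. -/
def dqWord (μ : List ι → ℂ) (j : ι) (w : List ι) : ℂ :=
  ∑ l : Fin w.length, if w.get l = j then μ (w.take l) * μ (w.drop (l + 1)) else 0

/-- `(τ ⊗ τ)(∂_j P(X))` for a noncommutative polynomial `P`. -/
noncomputable def dq (μ : List ι → ℂ) (j : ι) (p : List ι →₀ ℂ) : ℂ :=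
  p.sum fun w a => a * dqWord μ j w

/-- `‖P(X)‖₂² = τ(P(X)^* P(X))`. -/
noncomputable def normSq (μ : List ι → ℂ) (p : List ι →₀ ℂ) : ℝ :=
  (p.sum fun v a => p.sum fun w b => (starRingEnd ℂ) a * b * μ (v.reverse ++ w)).re

/-- `‖ξ_j‖₂²` for the conjugate variable `ξ_j` (`∞` if it does not exist), by Riesz. -/
noncomputable def conjNormSq (μ : List ι → ℂ) (j : ι) : ℝ≥0∞ :=
  ⨅ (C : ℝ≥0) (_ : ∀ p : List ι →₀ ℂ, ‖dq μ j p‖ ^ 2 ≤ C * normSq μ p), (C : ℝ≥0∞)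

/-- Free Fisher information `Φ^*`. -/
noncomputable def fisher (μ : List ι → ℂ) : ℝ≥0∞ := ∑ j, conjNormSq μ j

/-- Nonmicrostates free entropy from the moments `ν t` of `X + √t S`. -/
noncomputable def chiStar (ν : ℝ → List ι → ℂ) : EReal :=
  ((1 / 2 : ℝ) : EReal) *
      (((∫⁻ t in Set.Ioi (0 : ℝ), (ENNReal.ofReal (Fintype.card ι / (1 + t)) - fisher (ν t)) : ℝ≥0∞) : EReal)
        - ((∫⁻ t in Set.Ioi (0 : ℝ), (fisher (ν t) - ENNReal.ofReal (Fintype.card ι / (1 + t))) : ℝ≥0∞) : EReal))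
    + (((Fintype.card ι : ℝ) / 2 * Real.log (2 * Real.pi * Real.exp 1) : ℝ) : EReal)

end Law

section Alg

variable {A : Type} [Ring A] [StarRing A] [Algebra ℂ A]

/-- Joint moments `τ(X_w)` of a tuple. -/
def law {ι : Type} (τ : A →ₗ[ℂ] ℂ) (X : ι → A) (w : List ι) : ℂ := τ (w.map X).prod

/-- Free independence of a family of unital subalgebras. -/
def FreeFamily {κ : Type} (τ : A →ₗ[ℂ] ℂ) (B : κ → Subalgebra ℂ A) : Prop :=
  ∀ (n : ℕ) (i : Fin (n + 1) → κ) (a : Fin (n + 1) → A),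
    (∀ k, a k ∈ B (i k)) → (∀ k, τ (a k) = 0) → (∀ k : Fin n, i k.castSucc ≠ i k.succ) →
      τ (List.ofFn a).prod = 0

/-- `S` is a free family of semicircular elements of variance `1`, free from the tuple `X`. -/
structure IsFreeSemicircularFrom {ι : Type} (τ : A →ₗ[ℂ] ℂ) (X S : ι → A) : Prop where
  selfAdjoint : ∀ j, IsSelfAdjoint (S j)
  even : ∀ j k, τ (S j ^ (2 * k)) = (catalan k : ℂ)
  odd : ∀ j k, τ (S j ^ (2 * k + 1)) = 0
  free : FreeFamily τ (fun o : Option ι =>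
    o.elim (Algebra.adjoin ℂ (Set.range X)) (fun j => Algebra.adjoin ℂ {S j}))

/-- Faithful tracial functional with `τ(1) = 1`. -/
structure IsFaithfulTrace (τ : A →ₗ[ℂ] ℂ) : Prop where
  map_one : τ 1 = 1
  tracial : ∀ x y, τ (x * y) = τ (y * x)
  faithful : ∀ x, τ (star x * x) = 0 → x = 0

end Alg

section VN

variable {H : Type} [NormedAddCommGroup H] [InnerProductSpace ℂ H] [CompleteSpace H]

/-- `τ` is a normal positive functional on the von Neumann algebra `M`: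
a sum of vector functionals `⟨ξ_i, x ξ_i⟩` with `∑ ‖ξ_i‖² < ∞`. -/
structure IsNormal (M : VonNeumannAlgebra H) (τ : M.toStarSubalgebra →ₗ[ℂ] ℂ) : Prop where
  normal : ∃ ξ : ℕ → H, Summable (fun i => ‖ξ i‖ ^ 2) ∧
    ∀ x : M.toStarSubalgebra, τ x = ∑' i, inner ℂ (ξ i) ((x : H →L[ℂ] H) (ξ i))

end VN

/-- Some von Neumann algebra `M` on the Hilbert space `H`, with a faithful normal tracial state
`τ`, contains a self-adjoint tuple `X` and free semicirculars `S`, free from `X`, with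
`-∞ < χ(X) < χ^*(X)`. -/
inductive Gap (H : Type) [NormedAddCommGroup H] [InnerProductSpace ℂ H] [CompleteSpace H] : Prop
  | intro (M : VonNeumannAlgebra H) (τ : M.toStarSubalgebra →ₗ[ℂ] ℂ) (n : ℕ)
      (X S : Fin n → M.toStarSubalgebra) :
      IsFaithfulTrace τ → IsNormal M τ → 1 ≤ n → (∀ i, IsSelfAdjoint (X i)) →
      IsFreeSemicircularFrom τ X S → ⊥ < chi (law τ X) →
      chi (law τ X) <
        chiStar (fun t => law τ (fun i => X i + ((Real.sqrt t : ℝ) : ℂ) • S i)) → Gap H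

end Vale.Agent.P087.FD
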