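import Mathlib.Algebra.Order.Archimedean.Real.Hom
import Mathlib.Algebra.Order.Quantale
import Mathlib.Analysis.CStarAlgebra.ContinuousLinearMap
import Mathlib.Analysis.CStarAlgebra.Module.Constructions
import Mathlib.Analysis.Complex.ExponentialBounds
import Mathlib.Analysis.InnerProductSpace.l2Space
import Mathlib.Analysis.SpecialFunctions.Log.ENNRealLog
import Mathlib.Analysis.VonNeumannAlgebra.Basic
import Mathlib.Combinatorics.Enumerative.Catalan.Basic
import Mathlib.Data.Int.Star
import Mathlib.Data.Set.Finite.List
import Mathlib.LinearAlgebra.Matrix.Swap
import Mathlib.NumberTheory.Dioph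
import Mathlib.Order.CompletePartialOrder
import Mathlib.Probability.Distributions.Gaussian.Real
import Mathlib.RingTheory.MvPolynomial.IrreducibleQuadratic
import Mathlib.RingTheory.SimpleRing.Principal
import Mathlib.Tactic
import Mathlib.Topology.Algebra.ProperAction.Basic
import Mathlib.Topology.UniformSpace.Uniformizable

/-! The part of Mathlib that the development of this folder uses. -/
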